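import Vale.Agent.P236.R2.H383.Cobar

/-!
# The cochains in words: polynomial formulas over any commutative ring
-/

namespace Vale.Agent.P236.R2.H383

open MvPolynomial Finset

/-- `h_j = [ξ_1^{3^j}]`. -/
noncomputable def h (j : ℕ) : W := X (0, 0) ^ 3 ^ j

/-- `b_j = [ξ_1^{3^j}|ξ_1^{2·3^j}] + [ξ_1^{2·3^j}|ξ_1^{3^j}]`. -/
noncomputable def b (j : ℕ) : W :=
  X (0, 0) ^ 3 ^ j * X (1, 0) ^ (2 * 3 ^ j) + X (0, 0) ^ (2 * 3 ^ j) * X (1, 0) ^ 3 ^ j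

section
variable {R : Type*} [CommRing R]

/-- `b_0` -/
def fB0 (x0 x1 : R) : R := x0 * x1 ^ 2 + x0 ^ 2 * x1

/-- `b_1` -/
def fB1 (x0 x1 : R) : R := x0 ^ 3 * x1 ^ 6 + x0 ^ 6 * x1 ^ 3

/-- `[ξ_2^3|ξ_1^3] - [ξ_1^9|ξ_1^6]` -/
def fG (x0 y0 x1 : R) : R := y0 ^ 3 * x1 ^ 3 - x0 ^ 9 * x1 ^ 6

/-- `[ξ_1^9|ξ_2^3] - [ξ_1^18|ξ_1^3]` -/
def fK (x0 x1 y1 : R) : R := x0 ^ 9 * y1 ^ 3 - x0 ^ 18 * x1 ^ 3

/-- the three-cochain of degree `24` -/
def fX (x0 y0 x1 y1 x2 y2 : R) : R :=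
  y0 * y1^2 * x2^3 + y0^2 * y1 * x2^3 - x0 * x1^2 * y2^3 - x0 * x1^11 * x2^3 - x0^2 * x1 * y2^3
    - x0^2 * x1^10 * x2^3 + x0^3 * x1 * y1^2 * x2^3 - x0^3 * x1^6 * x2^6 - x0^3 * y0 * x1 * y1 *
    x2^3 + x0^3 * y0^2 * x1 * x2^3 + x0^6 * x1^2 * y1 * x2^3 - x0^6 * x1^3 * x2^6 + x0^6 * y0 *
    x1^2 * x2^3 - x0^10 * x1^2 * x2^3 - x0^11 * x1 * x2^3

end

section
variable {R S F : Type*} [CommRing R] [CommRing S] [FunLike F R S] [RingHomClass F R S] (φ : F)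

theorem fB0_map (x0 x1 : R) : φ (fB0 x0 x1) = fB0 (φ x0) (φ x1) := by
  simp only [fB0, map_add, map_mul, map_pow]

theorem fB1_map (x0 x1 : R) : φ (fB1 x0 x1) = fB1 (φ x0) (φ x1) := by
  simp only [fB1, map_add, map_mul, map_pow]

theorem fG_map (x0 y0 x1 : R) : φ (fG x0 y0 x1) = fG (φ x0) (φ y0) (φ x1) := by
  simp only [fG, map_sub, map_mul, map_pow]

theorem fK_map (x0 x1 y1 : R) : φ (fK x0 x1 y1) = fK (φ x0) (φ x1) (φ y1) := by
  simp only [fK, map_sub, map_mul, map_pow]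

theorem fX_map (x0 y0 x1 y1 x2 y2 : R) :
    φ (fX x0 y0 x1 y1 x2 y2) = fX (φ x0) (φ y0) (φ x1) (φ y1) (φ x2) (φ y2) := by
  simp only [fX, map_add, map_sub, map_mul, map_pow]

end

/-- the cochain `[ξ_2^3|ξ_1^3] - [ξ_1^9|ξ_1^6]` -/
noncomputable def Gc : W := fG (X (0, 0)) (X (0, 1)) (X (1, 0))

/-- the cochain `[ξ_1^9|ξ_2^3] - [ξ_1^18|ξ_1^3]` -/
noncomputable def Kc : W := fK (X (0, 0)) (X (1, 0)) (X (1, 1))

/-- the cochain `fX` -/
noncomputable def Xc : W :=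
  fX (X (0, 0)) (X (0, 1)) (X (1, 0)) (X (1, 1)) (X (2, 0)) (X (2, 1))

theorem b_zero : b 0 = fB0 (X (0, 0)) (X (1, 0)) := by
  simp [b, fB0]

theorem b_one : b 1 = fB1 (X (0, 0)) (X (1, 0)) := by
  simp [b, fB1]

theorem h_zero : h 0 = X (0, 0) := by simp [h]
theorem h_one : h 1 = X (0, 0) ^ 3 := by simp [h]
theorem h_two : h 2 = X (0, 0) ^ 9 := by
  unfold h
  norm_num

theorem face_x (t : ℕ) : face (t + 1) (X (t, 0)) = X (t, 0) + X (t + 1, 0) := by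
  rw [face_eq]
  simp [sum_range_succ, xi]

theorem face_y (t : ℕ) :
    face (t + 1) (X (t, 1)) = X (t, 1) + X (t, 0) ^ 3 * X (t + 1, 0) + X (t + 1, 1) := by
  rw [face_eq]
  simp [sum_range_succ, xi]

theorem face_z (t : ℕ) :
    face (t + 1) (X (t, 2)) =
      X (t, 2) + X (t, 1) ^ 3 * X (t + 1, 0) + X (t, 0) ^ 9 * X (t + 1, 1) + X (t + 1, 2) := by
  rw [face_eq]
  simp [sum_range_succ, xi]

theorem cob_one (f : W) : cob 1 f = face 0 f - face 1 f + face 2 f := by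
  simp only [cob, sum_range_succ, sum_range_zero]
  ring

theorem cob_two (f : W) : cob 2 f = face 0 f - face 1 f + face 2 f - face 3 f := by
  simp only [cob, sum_range_succ, sum_range_zero]
  ring

theorem cob_three (f : W) :
    cob 3 f = face 0 f - face 1 f + face 2 f - face 3 f + face 4 f := by
  simp only [cob, sum_range_succ, sum_range_zero]
  ring

theorem f_0_0_0 : face 0 (X (0, 0)) = X (1, 0) := face_gt _ (by norm_num)
theorem f_0_0_1 : face 0 (X (0, 1)) = X (1, 1) := face_gt _ (by norm_num)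
theorem f_0_0_2 : face 0 (X (0, 2)) = X (1, 2) := face_gt _ (by norm_num)
theorem f_0_1_0 : face 0 (X (1, 0)) = X (2, 0) := face_gt _ (by norm_num)
theorem f_0_1_1 : face 0 (X (1, 1)) = X (2, 1) := face_gt _ (by norm_num)
theorem f_0_1_2 : face 0 (X (1, 2)) = X (2, 2) := face_gt _ (by norm_num)
theorem f_0_2_0 : face 0 (X (2, 0)) = X (3, 0) := face_gt _ (by norm_num)
theorem f_0_2_1 : face 0 (X (2, 1)) = X (3, 1) := face_gt _ (by norm_num)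
theorem f_0_2_2 : face 0 (X (2, 2)) = X (3, 2) := face_gt _ (by norm_num)
theorem f_1_0_0 : face 1 (X (0, 0)) = X (0, 0) + X (1, 0) := face_x 0
theorem f_1_0_1 : face 1 (X (0, 1)) =
    X (0, 1) + X (0, 0) ^ 3 * X (1, 0) + X (1, 1) := face_y 0
theorem f_1_0_2 : face 1 (X (0, 2)) =
    X (0, 2) + X (0, 1) ^ 3 * X (1, 0) + X (0, 0) ^ 9 * X (1, 1) + X (1, 2) := face_z 0
theorem f_1_1_0 : face 1 (X (1, 0)) = X (2, 0) := face_gt _ (by norm_num)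
theorem f_1_1_1 : face 1 (X (1, 1)) = X (2, 1) := face_gt _ (by norm_num)
theorem f_1_1_2 : face 1 (X (1, 2)) = X (2, 2) := face_gt _ (by norm_num)
theorem f_1_2_0 : face 1 (X (2, 0)) = X (3, 0) := face_gt _ (by norm_num)
theorem f_1_2_1 : face 1 (X (2, 1)) = X (3, 1) := face_gt _ (by norm_num)
theorem f_1_2_2 : face 1 (X (2, 2)) = X (3, 2) := face_gt _ (by norm_num)
theorem f_2_0_0 : face 2 (X (0, 0)) = X (0, 0) := face_lt _ (by norm_num)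
theorem f_2_0_1 : face 2 (X (0, 1)) = X (0, 1) := face_lt _ (by norm_num)
theorem f_2_0_2 : face 2 (X (0, 2)) = X (0, 2) := face_lt _ (by norm_num)
theorem f_2_1_0 : face 2 (X (1, 0)) = X (1, 0) + X (2, 0) := face_x 1
theorem f_2_1_1 : face 2 (X (1, 1)) =
    X (1, 1) + X (1, 0) ^ 3 * X (2, 0) + X (2, 1) := face_y 1
theorem f_2_1_2 : face 2 (X (1, 2)) =
    X (1, 2) + X (1, 1) ^ 3 * X (2, 0) + X (1, 0) ^ 9 * X (2, 1) + X (2, 2) := face_z 1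
theorem f_2_2_0 : face 2 (X (2, 0)) = X (3, 0) := face_gt _ (by norm_num)
theorem f_2_2_1 : face 2 (X (2, 1)) = X (3, 1) := face_gt _ (by norm_num)
theorem f_2_2_2 : face 2 (X (2, 2)) = X (3, 2) := face_gt _ (by norm_num)
theorem f_3_0_0 : face 3 (X (0, 0)) = X (0, 0) := face_lt _ (by norm_num)
theorem f_3_0_1 : face 3 (X (0, 1)) = X (0, 1) := face_lt _ (by norm_num)
theorem f_3_0_2 : face 3 (X (0, 2)) = X (0, 2) := face_lt _ (by norm_num)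
theorem f_3_1_0 : face 3 (X (1, 0)) = X (1, 0) := face_lt _ (by norm_num)
theorem f_3_1_1 : face 3 (X (1, 1)) = X (1, 1) := face_lt _ (by norm_num)
theorem f_3_1_2 : face 3 (X (1, 2)) = X (1, 2) := face_lt _ (by norm_num)
theorem f_3_2_0 : face 3 (X (2, 0)) = X (2, 0) + X (3, 0) := face_x 2
theorem f_3_2_1 : face 3 (X (2, 1)) =
    X (2, 1) + X (2, 0) ^ 3 * X (3, 0) + X (3, 1) := face_y 2
theorem f_3_2_2 : face 3 (X (2, 2)) =
    X (2, 2) + X (2, 1) ^ 3 * X (3, 0) + X (2, 0) ^ 9 * X (3, 1) + X (3, 2) := face_z 2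
theorem f_4_0_0 : face 4 (X (0, 0)) = X (0, 0) := face_lt _ (by norm_num)
theorem f_4_0_1 : face 4 (X (0, 1)) = X (0, 1) := face_lt _ (by norm_num)
theorem f_4_0_2 : face 4 (X (0, 2)) = X (0, 2) := face_lt _ (by norm_num)
theorem f_4_1_0 : face 4 (X (1, 0)) = X (1, 0) := face_lt _ (by norm_num)
theorem f_4_1_1 : face 4 (X (1, 1)) = X (1, 1) := face_lt _ (by norm_num)
theorem f_4_1_2 : face 4 (X (1, 2)) = X (1, 2) := face_lt _ (by norm_num)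
theorem f_4_2_0 : face 4 (X (2, 0)) = X (2, 0) := face_lt _ (by norm_num)
theorem f_4_2_1 : face 4 (X (2, 1)) = X (2, 1) := face_lt _ (by norm_num)
theorem f_4_2_2 : face 4 (X (2, 2)) = X (2, 2) := face_lt _ (by norm_num)

end Vale.Agent.P236.R2.H383
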