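import Vale.Agent.P236.R2.H383.Base

namespace Vale.Agent.P236.R2.H383

open MvPolynomial Finset

/-- a word formula, the primitive in the theorem `cob_wR1` -/
def wR1 {R : Type*} [CommRing R]
    (x0 y0 x1 y1 x2 y2 z2 : R) : R :=
  -y0 * x1 * z2 + y0 * x1 * x2 * y2^3 - y0 * x1^2 * y2^3 - y0 * x1^9 * x2 * y2 - y0 * x1^9 * x2^5
    - y0 * x1^10 * y2 + y0 * x1^10 * x2^4 - y0 * x1^11 * x2^3 + x0^3 * y1 * x2^3 * y2^2 + x0^3 *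
    y1^2 * x2^3 * y2 + x0^3 * x1^2 * z2 - x0^3 * x1^2 * x2 * y2^3 + x0^3 * x1^3 * x2^4 * y2^2 +
    x0^3 * x1^3 * y1 * y2^2 - x0^3 * x1^3 * y1 * x2^4 * y2 + x0^3 * x1^3 * y1^2 * y2 + x0^3 *
    x1^3 * y1^2 * x2^4 + x0^3 * x1^6 * x2 * y2^2 + x0^3 * x1^6 * x2^5 * y2 - x0^3 * x1^6 * y1 *
    x2 * y2 + x0^3 * x1^6 * y1 * x2^5 + x0^3 * x1^6 * y1^2 * x2 + x0^3 * x1^9 * x2^2 * y2 + x0^3
    * x1^9 * x2^6 + x0^3 * x1^9 * y1 * x2^2 - x0^3 * x1^10 * x2 * y2 - x0^3 * x1^10 * x2^5 + x0^3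
    * x1^11 * y2 - x0^3 * x1^11 * x2^4 - x0^6 * y1 * y2^2 - x0^6 * y1^2 * y2 - x0^6 * x1^3 * x2 *
    y2^2 + x0^6 * x1^3 * y1 * x2 * y2 - x0^6 * x1^3 * y1^2 * x2 - x0^6 * x1^6 * x2^2 * y2 - x0^6
    * x1^6 * x2^6 - x0^6 * x1^6 * y1 * x2^2 + x0^6 * x1^9 * x2^3 - x0^9 * y1^2 * x2 - x0^9 * x1^3
    * x2^2 * y2 - x0^9 * x1^3 * x2^6 - x0^9 * x1^3 * y1 * x2^2 + x0^9 * y0 * y1 * x2 - x0^9 * y0
    * x1^3 * x2^2 - x0^12 * x1 * x2 * y2 + x0^12 * x1^2 * y2 + x0^12 * x1^4 * x2^2 + x0^12 * x1^5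
    * x2 - x0^15 * x1 * x2^2 - x0^15 * x1^2 * x2

theorem wR1_map {R S F : Type*} [CommRing R] [CommRing S] [FunLike F R S]
    [RingHomClass F R S] (φ : F) (x0 y0 x1 y1 x2 y2 z2 : R) :
    φ (wR1 x0 y0 x1 y1 x2 y2 z2) =
      wR1 (φ x0) (φ y0) (φ x1) (φ y1) (φ x2) (φ y2) (φ z2) := by
  simp only [wR1, map_add, map_sub, map_neg, map_mul, map_pow]

set_option maxHeartbeats 4000000 in
theorem tR1 {R : Type*} [CommRing R] [CharP R 3]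
    (x0 y0 x1 y1 x2 y2 z2 x3 y3 z3 : R) :
    wR1 x1 y1 x2 y2 x3 y3 z3 - wR1 (x0 + x1) (y0 + x0 ^ 3 * x1 + y1) x2 y2 x3 y3 z3 + wR1 x0 y0
      (x1 + x2) (y1 + x1 ^ 3 * x2 + y2) x3 y3 z3 - wR1 x0 y0 x1 y1 (x2 + x3) (y2 + x2 ^ 3 * x3 +
      y3) (z2 + y2 ^ 3 * x3 + x2 ^ 9 * y3 + z3) + wR1 x0 y0 x1 y1 x2 y2 z2 =
      fB1 x0 x1 * fB1 x2 x3 - x0 ^ 3 * fX x1 y1 x2 y2 x3 y3 := by
  have h3 : (3 : R) = 0 := by exact_mod_cast CharP.cast_eq_zero R 3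
  unfold wR1 fB1 fX
  grind

/-- the primitive -/
noncomputable def cR1 : W :=
  wR1 (X (0, 0)) (X (0, 1)) (X (1, 0)) (X (1, 1)) (X (2, 0)) (X (2, 1)) (X (2, 2))

theorem cR1_mem : cR1 ∈ Co 3 := by
  have e := wR1_map (Co 3).val
    ⟨X (0, 0), X_mem _ (by norm_num)⟩
    ⟨X (0, 1), X_mem _ (by norm_num)⟩
    ⟨X (1, 0), X_mem _ (by norm_num)⟩
    ⟨X (1, 1), X_mem _ (by norm_num)⟩
    ⟨X (2, 0), X_mem _ (by norm_num)⟩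
    ⟨X (2, 1), X_mem _ (by norm_num)⟩
    ⟨X (2, 2), X_mem _ (by norm_num)⟩
  have e2 : cR1 = _ := e.symm
  rw [e2]
  exact SetLike.coe_mem _

theorem cob_cR1 : cob 3 cR1 =
    b 1 * sh 2 (b 1) - h 1 * sh 1 Xc := by
  unfold cR1 Xc
  rw [cob_three]
  simp only [wR1_map,
    f_0_0_0, f_0_0_1, f_0_1_0, f_0_1_1, f_0_2_0, f_0_2_1, f_0_2_2, f_1_0_0, f_1_0_1, f_1_1_0,
      f_1_1_1, f_1_2_0, f_1_2_1, f_1_2_2, f_2_0_0, f_2_0_1, f_2_1_0, f_2_1_1, f_2_2_0, f_2_2_1,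
      f_2_2_2, f_3_0_0, f_3_0_1, f_3_1_0, f_3_1_1, f_3_2_0, f_3_2_1, f_3_2_2, f_4_0_0, f_4_0_1,
      f_4_1_0, f_4_1_1, f_4_2_0, f_4_2_1, f_4_2_2,
    b_one, h_one, fB1_map, fX_map, sh_X, Nat.reduceAdd]
  exact tR1 (X (0, 0)) (X (0, 1)) (X (1, 0)) (X (1, 1)) (X (2, 0)) (X (2, 1)) (X (2, 2)) (X (3, 0)) (X (3, 1)) (X (3, 2))

end Vale.Agent.P236.R2.H383
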