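import Vale.Agent.P236.R2.H383.Base

namespace Vale.Agent.P236.R2.H383

open MvPolynomial Finset

/-- a word formula, the primitive in the theorem `cob_wR1p` -/
def wR1p {R : Type*} [CommRing R]
    (x0 y0 x1 y1 x2 y2 z2 : R) : R :=
  y0 * y1^2 * x2^6 - y0 * x1 * z2 + y0 * x1 * x2 * y2^3 + y0 * x1 * x2^9 * y2 - y0 * x1 * x2^13 +
    y0 * x1 * y1 * x2^9 - y0 * x1^2 * y2^3 + y0 * x1^2 * x2^12 + y0 * x1^5 * x2^9 + y0^2 * y1 *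
    x2^6 - y0^2 * x1 * x2^9 + x0 * x1^2 * x2^3 * y2^3 + x0 * x1^2 * x2^15 + x0 * x1^5 * y2^3 - x0
    * x1^5 * x2^12 + x0 * x1^8 * x2^9 - x0 * x1^11 * x2^6 + x0^2 * x1 * x2^3 * y2^3 + x0^2 * x1 *
    x2^15 + x0^2 * x1^4 * y2^3 - x0^2 * x1^4 * x2^12 + x0^2 * x1^7 * x2^9 - x0^2 * x1^10 * x2^6 +
    x0^3 * x1 * y1^2 * x2^6 + x0^3 * x1^2 * z2 - x0^3 * x1^2 * x2 * y2^3 - x0^3 * x1^2 * x2^9 *
    y2 + x0^3 * x1^2 * x2^13 - x0^3 * x1^2 * y1 * x2^9 - x0^3 * x1^6 * x2^9 - x0^3 * y0 * x1 * y1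
    * x2^6 - x0^3 * y0 * x1^2 * x2^9 + x0^3 * y0^2 * x1 * x2^6 + x0^4 * x1^2 * y2^3 - x0^4 * x1^2
    * x2^12 - x0^4 * x1^5 * x2^9 + x0^5 * x1 * y2^3 - x0^5 * x1 * x2^12 - x0^5 * x1^4 * x2^9 +
    x0^6 * x1^2 * y1 * x2^6 + x0^6 * y0 * x1^2 * x2^6 + x0^7 * x1^2 * x2^9 + x0^8 * x1 * x2^9 -
    x0^10 * x1^2 * x2^6 - x0^11 * x1 * x2^6

theorem wR1p_map {R S F : Type*} [CommRing R] [CommRing S] [FunLike F R S]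
    [RingHomClass F R S] (φ : F) (x0 y0 x1 y1 x2 y2 z2 : R) :
    φ (wR1p x0 y0 x1 y1 x2 y2 z2) =
      wR1p (φ x0) (φ y0) (φ x1) (φ y1) (φ x2) (φ y2) (φ z2) := by
  simp only [wR1p, map_add, map_sub, map_mul, map_pow]

set_option maxHeartbeats 4000000 in
theorem tR1p {R : Type*} [CommRing R] [CharP R 3]
    (x0 y0 x1 y1 x2 y2 z2 x3 y3 z3 : R) :
    wR1p x1 y1 x2 y2 x3 y3 z3 - wR1p (x0 + x1) (y0 + x0 ^ 3 * x1 + y1) x2 y2 x3 y3 z3 + wR1p x0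
      y0 (x1 + x2) (y1 + x1 ^ 3 * x2 + y2) x3 y3 z3 - wR1p x0 y0 x1 y1 (x2 + x3) (y2 + x2 ^ 3 *
      x3 + y3) (z2 + y2 ^ 3 * x3 + x2 ^ 9 * y3 + z3) + wR1p x0 y0 x1 y1 x2 y2 z2 =
      fB1 x0 x1 * fB1 x2 x3 + fX x0 y0 x1 y1 x2 y2 * x3 ^ 3 := by
  have h3 : (3 : R) = 0 := by exact_mod_cast CharP.cast_eq_zero R 3
  unfold wR1p fB1 fX
  grind

/-- the primitive -/
noncomputable def cR1p : W :=
  wR1p (X (0, 0)) (X (0, 1)) (X (1, 0)) (X (1, 1)) (X (2, 0)) (X (2, 1)) (X (2, 2))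

theorem cR1p_mem : cR1p ∈ Co 3 := by
  have e := wR1p_map (Co 3).val
    ⟨X (0, 0), X_mem _ (by norm_num)⟩
    ⟨X (0, 1), X_mem _ (by norm_num)⟩
    ⟨X (1, 0), X_mem _ (by norm_num)⟩
    ⟨X (1, 1), X_mem _ (by norm_num)⟩
    ⟨X (2, 0), X_mem _ (by norm_num)⟩
    ⟨X (2, 1), X_mem _ (by norm_num)⟩
    ⟨X (2, 2), X_mem _ (by norm_num)⟩
  have e2 : cR1p = _ := e.symm
  rw [e2]
  exact SetLike.coe_mem _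

theorem cob_cR1p : cob 3 cR1p =
    b 1 * sh 2 (b 1) + Xc * sh 3 (h 1) := by
  unfold cR1p Xc
  rw [cob_three]
  simp only [wR1p_map,
    f_0_0_0, f_0_0_1, f_0_1_0, f_0_1_1, f_0_2_0, f_0_2_1, f_0_2_2, f_1_0_0, f_1_0_1, f_1_1_0,
      f_1_1_1, f_1_2_0, f_1_2_1, f_1_2_2, f_2_0_0, f_2_0_1, f_2_1_0, f_2_1_1, f_2_2_0, f_2_2_1,
      f_2_2_2, f_3_0_0, f_3_0_1, f_3_1_0, f_3_1_1, f_3_2_0, f_3_2_1, f_3_2_2, f_4_0_0, f_4_0_1,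
      f_4_1_0, f_4_1_1, f_4_2_0, f_4_2_1, f_4_2_2,
    b_one, h_one, map_pow, fB1_map, sh_X, Nat.reduceAdd]
  exact tR1p (X (0, 0)) (X (0, 1)) (X (1, 0)) (X (1, 1)) (X (2, 0)) (X (2, 1)) (X (2, 2)) (X (3, 0)) (X (3, 1)) (X (3, 2))

end Vale.Agent.P236.R2.H383
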