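import Vale.Agent.P236.R2.H383.Base

namespace Vale.Agent.P236.R2.H383

open MvPolynomial Finset

/-- a word formula, the primitive in the theorem `cob_wR3` -/
def wR3 {R : Type*} [CommRing R]
    (x0 y0 z0 x1 y1 z1 x2 y2 : R) : R :=
  -z0 * x1 * x2^10 - z0 * x1^2 * x2^9 + z0 * x1^9 * x2^2 - z0 * x1^10 * x2 - y0^3 * y1 * y2^2 -
    y0^3 * y1^2 * y2 + y0^3 * x1^2 * x2^10 - y0^3 * x1^3 * x2 * y2^2 + y0^3 * x1^3 * y1 * x2 * y2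
    - y0^3 * x1^3 * y1^2 * x2 - y0^3 * x1^6 * x2^2 * y2 - y0^3 * x1^6 * x2^6 - y0^3 * x1^6 * y1 *
    x2^2 + y0^3 * x1^10 * x2^2 + y0^3 * x1^11 * x2 - x0 * x1 * z1 * x2^9 - x0 * x1^2 * x2^9 *
    y2^3 - x0 * x1^2 * y1^3 * x2^9 + x0 * x1^11 * y2^3 - x0 * x1^11 * x2^12 - x0 * z0 * x1 * x2^9
    + x0 * y0^3 * x1^2 * x2^9 + x0^2 * z1 * x2^9 - x0^2 * x1 * x2^9 * y2^3 - x0^2 * x1 * y1^3 *
    x2^9 + x0^2 * x1^10 * y2^3 - x0^2 * x1^10 * x2^12 - x0^9 * y1 * x2^3 * y2^2 - x0^9 * y1 *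
    x2^11 - x0^9 * y1^2 * x2^3 * y2 + x0^9 * x1 * x2^14 + x0^9 * x1^2 * x2^13 + x0^9 * x1^2 * y1
    * x2^9 - x0^9 * x1^3 * x2^4 * y2^2 + x0^9 * x1^3 * x2^12 - x0^9 * x1^3 * y1 * y2^2 + x0^9 *
    x1^3 * y1 * x2^4 * y2 - x0^9 * x1^3 * y1^2 * y2 - x0^9 * x1^3 * y1^2 * x2^4 + x0^9 * x1^4 *
    x2^11 + x0^9 * x1^5 * x2^10 - x0^9 * x1^6 * x2 * y2^2 - x0^9 * x1^6 * x2^5 * y2 + x0^9 * x1^6
    * y1 * x2 * y2 - x0^9 * x1^6 * y1 * x2^5 - x0^9 * x1^6 * y1^2 * x2 - x0^9 * x1^9 * x2^2 * y2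
    - x0^9 * x1^9 * x2^6 - x0^9 * x1^9 * y1 * x2^2 + x0^9 * x1^10 * x2^5 + x0^9 * x1^11 * x2^4 +
    x0^9 * x1^13 * x2^2 + x0^9 * x1^14 * x2 - x0^10 * x1 * y1 * x2^9 + x0^10 * x1^2 * y2^3 -
    x0^10 * x1^2 * x2^12 - x0^10 * x1^5 * x2^9 + x0^11 * y1 * x2^9 + x0^11 * x1 * y2^3 - x0^11 *
    x1 * x2^12 - x0^11 * x1^4 * x2^9

theorem wR3_map {R S F : Type*} [CommRing R] [CommRing S] [FunLike F R S]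
    [RingHomClass F R S] (φ : F) (x0 y0 z0 x1 y1 z1 x2 y2 : R) :
    φ (wR3 x0 y0 z0 x1 y1 z1 x2 y2) =
      wR3 (φ x0) (φ y0) (φ z0) (φ x1) (φ y1) (φ z1) (φ x2) (φ y2) := by
  simp only [wR3, map_add, map_sub, map_neg, map_mul, map_pow]

set_option maxHeartbeats 4000000 in
theorem tR3 {R : Type*} [CommRing R] [CharP R 3]
    (x0 y0 z0 x1 y1 z1 x2 y2 z2 x3 y3 : R) :
    wR3 x1 y1 z1 x2 y2 z2 x3 y3 - wR3 (x0 + x1) (y0 + x0 ^ 3 * x1 + y1) (z0 + y0 ^ 3 * x1 + x0 ^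
      9 * y1 + z1) x2 y2 z2 x3 y3 + wR3 x0 y0 z0 (x1 + x2) (y1 + x1 ^ 3 * x2 + y2) (z1 + y1 ^ 3 *
      x2 + x1 ^ 9 * y2 + z2) x3 y3 - wR3 x0 y0 z0 x1 y1 z1 (x2 + x3) (y2 + x2 ^ 3 * x3 + y3) +
      wR3 x0 y0 z0 x1 y1 z1 x2 y2 =
      x0 ^ 9 * fX x1 y1 x2 y2 x3 y3 + fG x0 y0 x1 * fB1 x2 x3 - fB0 x0 x1 * fK x2 x3 y3 := by
  have h3 : (3 : R) = 0 := by exact_mod_cast CharP.cast_eq_zero R 3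
  unfold wR3 fB0 fB1 fG fK fX
  grind

/-- the primitive -/
noncomputable def cR3 : W :=
  wR3 (X (0, 0)) (X (0, 1)) (X (0, 2)) (X (1, 0)) (X (1, 1)) (X (1, 2)) (X (2, 0)) (X (2, 1))

theorem cR3_mem : cR3 ∈ Co 3 := by
  have e := wR3_map (Co 3).val
    ⟨X (0, 0), X_mem _ (by norm_num)⟩
    ⟨X (0, 1), X_mem _ (by norm_num)⟩
    ⟨X (0, 2), X_mem _ (by norm_num)⟩
    ⟨X (1, 0), X_mem _ (by norm_num)⟩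
    ⟨X (1, 1), X_mem _ (by norm_num)⟩
    ⟨X (1, 2), X_mem _ (by norm_num)⟩
    ⟨X (2, 0), X_mem _ (by norm_num)⟩
    ⟨X (2, 1), X_mem _ (by norm_num)⟩
  have e2 : cR3 = _ := e.symm
  rw [e2]
  exact SetLike.coe_mem _

theorem cob_cR3 : cob 3 cR3 =
    h 2 * sh 1 Xc + Gc * sh 2 (b 1) - b 0 * sh 2 Kc := by
  unfold cR3 Gc Kc Xc
  rw [cob_three]
  simp only [wR3_map,
    f_0_0_0, f_0_0_1, f_0_0_2, f_0_1_0, f_0_1_1, f_0_1_2, f_0_2_0, f_0_2_1, f_1_0_0, f_1_0_1,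
      f_1_0_2, f_1_1_0, f_1_1_1, f_1_1_2, f_1_2_0, f_1_2_1, f_2_0_0, f_2_0_1, f_2_0_2, f_2_1_0,
      f_2_1_1, f_2_1_2, f_2_2_0, f_2_2_1, f_3_0_0, f_3_0_1, f_3_0_2, f_3_1_0, f_3_1_1, f_3_1_2,
      f_3_2_0, f_3_2_1, f_4_0_0, f_4_0_1, f_4_0_2, f_4_1_0, f_4_1_1, f_4_1_2, f_4_2_0, f_4_2_1,
    b_zero, b_one, h_two, fB1_map, fK_map, fX_map, sh_X, Nat.reduceAdd]
  exact tR3 (X (0, 0)) (X (0, 1)) (X (0, 2)) (X (1, 0)) (X (1, 1)) (X (1, 2)) (X (2, 0)) (X (2, 1)) (X (2, 2)) (X (3, 0)) (X (3, 1))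

end Vale.Agent.P236.R2.H383
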